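import Mathlib

namespace Vale.Agent.Lib.P229.helper2

open scoped ContDiff
open Real

/-- Componentwise computation of the pulled-back metric of a map of the plane into
Euclidean three-space. -/
theorem inner_fderiv_of_components3 (F : ℝ × ℝ → EuclideanSpace ℝ (Fin 3)) (a b : Fin 3 → ℝ)
    (p : ℝ × ℝ)
    (h : ∀ i, HasFDerivAt (fun q => F q i)
      (a i • ContinuousLinearMap.fst ℝ ℝ ℝ + b i • ContinuousLinearMap.snd ℝ ℝ ℝ) p)
    (v w : ℝ × ℝ) :
    inner ℝ (fderiv ℝ F p v) (fderiv ℝ F p w) =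
      ∑ i, (a i * v.1 + b i * v.2) * (a i * w.1 + b i * w.2) := by
  have hF : DifferentiableAt ℝ F p :=
    differentiableAt_euclidean.2 (fun i => (h i).differentiableAt)
  have key : ∀ (u : ℝ × ℝ) (i : Fin 3), (fderiv ℝ F p u) i = a i * u.1 + b i * u.2 := by
    intro u i
    have h1 : HasFDerivAt (fun q => F q i)
        ((PiLp.proj 2 (fun _ : Fin 3 => ℝ) i) ∘L fderiv ℝ F p) p := by
      have h0 := (hasFDerivWithinAt_euclidean (f := F) (f' := fderiv ℝ F p) (t := Set.univ)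
        (y := p)).1 hF.hasFDerivAt.hasFDerivWithinAt i
      exact hasFDerivWithinAt_univ.1 h0
    have h2 := h1.unique (h i)
    have h3 := congrArg (fun T => T u) h2
    simpa using h3
  rw [PiLp.inner_apply]
  simp [key, mul_comm]

/-- A surface of revolution whose parallels are traversed `k` times: the profile has radius
`r t / k` and height `h t`, and `ψ` is a shift of the angular coordinate. -/
noncomputable def revMap (k : ℕ) (r ψ h : ℝ → ℝ) (q : ℝ × ℝ) : EuclideanSpace ℝ (Fin 3) :=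
  !₂[r q.1 / k * Real.cos (k * (q.2 + ψ q.1)), r q.1 / k * Real.sin (k * (q.2 + ψ q.1)), h q.1]

theorem revMap_contDiffOn (k : ℕ) (r ψ h : ℝ → ℝ) (s : Set ℝ)
    (hr : ContDiff ℝ ∞ r) (hψ : ContDiff ℝ ∞ ψ) (hh : ContDiffOn ℝ ∞ h s) :
    ContDiffOn ℝ ∞ (revMap k r ψ h) (s ×ˢ Set.univ) := by
  rw [contDiffOn_euclidean]
  intro i
  fin_cases i
  · have h1 : ContDiff ℝ ∞ (fun q : ℝ × ℝ => r q.1 / k * Real.cos (k * (q.2 + ψ q.1))) := by
      fun_prop
    simp only [revMap]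
    simpa using h1.contDiffOn
  · have h1 : ContDiff ℝ ∞ (fun q : ℝ × ℝ => r q.1 / k * Real.sin (k * (q.2 + ψ q.1))) := by
      fun_prop
    simp only [revMap]
    simpa using h1.contDiffOn
  · have h1 : ContDiffOn ℝ ∞ (fun q : ℝ × ℝ => h q.1) (s ×ˢ Set.univ) :=
      hh.comp contDiffOn_fst (fun q hq => hq.1)
    simp only [revMap]
    simpa using h1

theorem revMap_metric (k : ℕ) (hk : (k : ℝ) ≠ 0) (r ψ h : ℝ → ℝ) (r' ψ' h' : ℝ) (p : ℝ × ℝ)
    (hr : HasDerivAt r r' p.1) (hψ : HasDerivAt ψ ψ' p.1) (hh : HasDerivAt h h' p.1)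
    (v w : ℝ × ℝ) :
    inner ℝ (fderiv ℝ (revMap k r ψ h) p v) (fderiv ℝ (revMap k r ψ h) p w) =
      (r' ^ 2 / (k : ℝ) ^ 2 + r p.1 ^ 2 * ψ' ^ 2 + h' ^ 2) * (v.1 * w.1)
        + (r p.1 ^ 2 * ψ') * (v.1 * w.2 + v.2 * w.1) + r p.1 ^ 2 * (v.2 * w.2) := by
  have hfst : HasFDerivAt (fun q : ℝ × ℝ => q.1) (ContinuousLinearMap.fst ℝ ℝ ℝ) p :=
    hasFDerivAt_fst
  have hsnd : HasFDerivAt (fun q : ℝ × ℝ => q.2) (ContinuousLinearMap.snd ℝ ℝ ℝ) p :=
    hasFDerivAt_snd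
  have h_r : HasFDerivAt (fun q : ℝ × ℝ => r q.1)
      (r' • ContinuousLinearMap.fst ℝ ℝ ℝ) p := hr.comp_hasFDerivAt p hfst
  have h_ψ : HasFDerivAt (fun q : ℝ × ℝ => ψ q.1)
      (ψ' • ContinuousLinearMap.fst ℝ ℝ ℝ) p := hψ.comp_hasFDerivAt p hfst
  have h_h : HasFDerivAt (fun q : ℝ × ℝ => h q.1)
      (h' • ContinuousLinearMap.fst ℝ ℝ ℝ) p := hh.comp_hasFDerivAt p hfst
  have h_ang : HasFDerivAt (fun q : ℝ × ℝ => (k : ℝ) * (q.2 + ψ q.1))
      ((k : ℝ) • (ContinuousLinearMap.snd ℝ ℝ ℝ + ψ' • ContinuousLinearMap.fst ℝ ℝ ℝ)) p :=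
    (hsnd.add h_ψ).const_mul (k : ℝ)
  have hcs : Real.cos (k * (p.2 + ψ p.1)) ^ 2 + Real.sin (k * (p.2 + ψ p.1)) ^ 2 = 1 :=
    Real.cos_sq_add_sin_sq _
  have key := inner_fderiv_of_components3 (revMap k r ψ h)
    ![r' / k * Real.cos (k * (p.2 + ψ p.1)) - r p.1 * ψ' * Real.sin (k * (p.2 + ψ p.1)),
      r' / k * Real.sin (k * (p.2 + ψ p.1)) + r p.1 * ψ' * Real.cos (k * (p.2 + ψ p.1)), h']
    ![-(r p.1 * Real.sin (k * (p.2 + ψ p.1))), r p.1 * Real.cos (k * (p.2 + ψ p.1)), 0] p ?_ v w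
  · rw [key, Fin.sum_univ_three]
    simp only [Matrix.cons_val_zero, Matrix.cons_val_one, Matrix.cons_val_two,
      Matrix.head_cons, Matrix.tail_cons]
    linear_combination (v.1 * w.1 * (r' ^ 2 / (k : ℝ) ^ 2 + r p.1 ^ 2 * ψ' ^ 2)
      + (v.1 * w.2 + v.2 * w.1) * (r p.1 ^ 2 * ψ') + v.2 * w.2 * r p.1 ^ 2) * hcs
  · intro i
    fin_cases i
    · have h0 := (h_r.mul_const ((k : ℝ)⁻¹)).mul h_ang.cos
      have e : (fun q : ℝ × ℝ => r q.1 / k * Real.cos (k * (q.2 + ψ q.1))) =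
          ((fun y : ℝ × ℝ => r y.1 * (k : ℝ)⁻¹) * fun x : ℝ × ℝ => Real.cos (k * (x.2 + ψ x.1))) := by
        funext q
        simp [div_eq_mul_inv]
      simp only [revMap]
      simp
      rw [e]
      refine h0.congr_fderiv ?_
      refine ContinuousLinearMap.ext fun u => ?_
      simp
      field_simp
      ring
    · have h0 := (h_r.mul_const ((k : ℝ)⁻¹)).mul h_ang.sin
      have e : (fun q : ℝ × ℝ => r q.1 / k * Real.sin (k * (q.2 + ψ q.1))) =
          ((fun y : ℝ × ℝ => r y.1 * (k : ℝ)⁻¹) * fun x : ℝ × ℝ => Real.sin (k * (x.2 + ψ x.1))) := by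
        funext q
        simp [div_eq_mul_inv]
      simp only [revMap]
      simp
      rw [e]
      refine h0.congr_fderiv ?_
      refine ContinuousLinearMap.ext fun u => ?_
      simp
      field_simp
      ring
    · simp only [revMap]
      simp
      refine h_h.congr_fderiv ?_
      refine ContinuousLinearMap.ext fun u => ?_
      simp

end Vale.Agent.Lib.P229.helper2
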