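import Mathlib
import Vale.Agent.Lib.P229.helper2.Revolution

namespace Vale.Agent.Lib.P229.helper2

open scoped ContDiff
open Real

/-- Every smooth positive definite metric `A(t) dt² + 2 B(t) dt dθ + C(t) dθ²` on the plane
whose coefficients depend on `t` only is induced, on every strip `(a, b) × ℝ`, by a smooth map
into Euclidean three-space. -/
theorem exists_revolution_immersion (A B C : ℝ → ℝ)
    (hA : ContDiff ℝ ∞ A) (hB : ContDiff ℝ ∞ B) (hC : ContDiff ℝ ∞ C)
    (hCpos : ∀ t, 0 < C t) (hdet : ∀ t, 0 < A t * C t - B t ^ 2) (a b : ℝ) :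
    ∃ F : ℝ × ℝ → EuclideanSpace ℝ (Fin 3),
      ContDiffOn ℝ ∞ F (Set.Ioo a b ×ˢ (Set.univ : Set ℝ)) ∧
      ∀ p ∈ Set.Ioo a b ×ˢ (Set.univ : Set ℝ), ∀ v w : ℝ × ℝ,
        inner ℝ (fderiv ℝ F p v) (fderiv ℝ F p w) =
          A p.1 * (v.1 * w.1) + B p.1 * (v.1 * w.2 + v.2 * w.1) + C p.1 * (v.2 * w.2) := by
  -- the radius function
  set r : ℝ → ℝ := fun t => Real.sqrt (C t) with hr_def
  have hr : ContDiff ℝ ∞ r := hC.sqrt (fun t => (hCpos t).ne')
  have hr_sq : ∀ t, r t ^ 2 = C t := fun t => Real.sq_sqrt (hCpos t).le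
  have hr_diff : Differentiable ℝ r := hr.differentiable (by simp)
  have hr' : ∀ t, HasDerivAt r (deriv r t) t := fun t => (hr_diff t).hasDerivAt
  have hdr : ContDiff ℝ ∞ (deriv r) := (contDiff_infty_iff_deriv.1 hr).2
  -- the reduced first coefficient
  set E : ℝ → ℝ := fun t => A t - B t ^ 2 / C t with hE_def
  have hE : ContDiff ℝ ∞ E := hA.sub ((hB.pow 2).div hC (fun t => (hCpos t).ne'))
  have hE_pos : ∀ t, 0 < E t := by
    intro t
    have h1 := hdet t
    have hc := hCpos t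
    simp only [hE_def]
    rw [sub_pos, div_lt_iff₀ hc]
    linarith
  have hEinv : Continuous (fun t => (E t)⁻¹) := hE.continuous.inv₀ (fun t => (hE_pos t).ne')
  -- bounds on the compact interval
  obtain ⟨M, hM⟩ := (isCompact_Icc (a := a) (b := b)).exists_bound_of_continuousOn
    hdr.continuous.continuousOn
  obtain ⟨M₂, hM₂⟩ := (isCompact_Icc (a := a) (b := b)).exists_bound_of_continuousOn
    hEinv.continuousOn
  obtain ⟨k, hk⟩ := exists_nat_gt (max (M ^ 2 * M₂ + 1) 1)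
  have hk1 : M ^ 2 * M₂ + 1 < k := lt_of_le_of_lt (le_max_left _ _) hk
  have hk_gt1 : (1:ℝ) < k := lt_of_le_of_lt (le_max_right _ _) hk
  have hk0 : (0:ℝ) < k := by linarith
  set H : ℝ → ℝ := fun t => E t - deriv r t ^ 2 / (k:ℝ) ^ 2 with hH_def
  have hH : ContDiff ℝ ∞ H := hE.sub ((hdr.pow 2).div_const _)
  have hH_pos : ∀ t ∈ Set.Icc a b, 0 < H t := by
    intro t ht
    have h1 : deriv r t ^ 2 ≤ M ^ 2 := by
      have h0 := hM t ht
      rw [Real.norm_eq_abs] at h0
      nlinarith [abs_nonneg (deriv r t), sq_abs (deriv r t)]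
    have h2 : 1 ≤ M₂ * E t := by
      have h0 := hM₂ t ht
      rw [Real.norm_eq_abs, abs_of_pos (inv_pos.2 (hE_pos t))] at h0
      have h3 := mul_le_mul_of_nonneg_right h0 (hE_pos t).le
      rw [inv_mul_cancel₀ (hE_pos t).ne'] at h3
      exact h3
    have h3 : M ^ 2 ≤ M ^ 2 * (M₂ * E t) := by nlinarith [sq_nonneg M]
    have hM₂pos : 0 < M₂ := by
      by_contra hneg
      push Not at hneg
      nlinarith [hE_pos t]
    have h4 : M ^ 2 * M₂ < (k:ℝ) ^ 2 := by nlinarith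
    have h5 : deriv r t ^ 2 < (k:ℝ) ^ 2 * E t := by nlinarith [hE_pos t]
    simp only [hH_def]
    rw [sub_pos, div_lt_iff₀ (by positivity)]
    linarith
  -- the height function
  set σ : ℝ → ℝ := fun t => Real.sqrt (H t) with hσ_def
  have hσc : Continuous σ := Real.continuous_sqrt.comp hH.continuous
  set h : ℝ → ℝ := fun t => ∫ x in a..t, σ x with hh_def
  have hhd : ∀ t, HasDerivAt h (σ t) t := fun t => (hσc.integral_hasStrictDerivAt a t).hasDerivAt
  have hh : ContDiffOn ℝ ∞ h (Set.Ioo a b) := by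
    rw [contDiffOn_infty_iff_deriv_of_isOpen isOpen_Ioo]
    refine ⟨fun t _ => (hhd t).differentiableAt.differentiableWithinAt, ?_⟩
    have h1 : deriv h = σ := funext fun t => (hhd t).deriv
    rw [h1]
    exact hH.contDiffOn.sqrt (fun t ht => (hH_pos t (Set.Ioo_subset_Icc_self ht)).ne')
  -- the angular shift
  have hBC : ContDiff ℝ ∞ (fun x => B x / C x) := hB.div hC (fun t => (hCpos t).ne')
  set ψ : ℝ → ℝ := fun u => ∫ x in (0:ℝ)..u, B x / C x with hψ_def
  have hψd : ∀ t, HasDerivAt ψ (B t / C t) t :=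
    fun t => (hBC.continuous.integral_hasStrictDerivAt 0 t).hasDerivAt
  have hψ : ContDiff ℝ ∞ ψ := by
    rw [contDiff_infty_iff_deriv]
    refine ⟨fun t => (hψd t).differentiableAt, ?_⟩
    have h1 : deriv ψ = fun x => B x / C x := funext fun t => (hψd t).deriv
    rw [h1]
    exact hBC
  refine ⟨revMap k r ψ h, revMap_contDiffOn k r ψ h (Set.Ioo a b) hr hψ hh, ?_⟩
  intro p hp v w
  have hp1 : p.1 ∈ Set.Icc a b := Set.Ioo_subset_Icc_self hp.1
  rw [revMap_metric k hk0.ne' r ψ h (deriv r p.1) (B p.1 / C p.1) (σ p.1) p (hr' p.1) (hψd p.1)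
    (hhd p.1) v w]
  have h1 : σ p.1 ^ 2 = E p.1 - deriv r p.1 ^ 2 / (k:ℝ) ^ 2 := Real.sq_sqrt (hH_pos p.1 hp1).le
  have h2 := hr_sq p.1
  have hc := hCpos p.1
  rw [h1, h2]
  simp only [hE_def]
  field_simp
  ring

end Vale.Agent.Lib.P229.helper2
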